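import Vale.Agent.P317.Flat
import Vale.Agent.P328.Machine

/-!
The algorithm on lists and its running time.
-/

namespace Vale.Agent.P317.AL

open Vale.Agent.Lib.H24.T Vale.Agent.P338.PTX
open Vale.Agent.P328 (val)
open Vale.Agent.P328.AL (pt_val pt_npow)

/-- Parameters and random bits. -/
abbrev Pa : Type := List ℕ × List Bool
/-- Subsets of the doubled ground set. -/
abbrev Se : Type := List (Bool × Bool)
/-- Numbers in unary. -/
abbrev Un : Type := List Unit
/-- States. -/
abbrev LS : Type := (Se × Se × Se × Se) × (Un × Un × Un × Un) × List Se × Bool × List Un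

/-- Membership. -/
def mem (S : Se) (i : ℕ) (β : Bool) : Bool :=
  cond β (S.getD i (false, false)).2 (S.getD i (false, false)).1
/-- Number of copies. -/
def cn (S : Se) (i : ℕ) : ℕ := (mem S i false).toNat + (mem S i true).toNat
/-- The potentials. -/
def kk (H : List Se) (i : ℕ) : ℤ := (H.map fun S => (cn S i : ℤ) - 1).sum
/-- The time. -/
def tm (y : LS) : ℕ := y.2.1.2.2.2.length

variable (p : Pa)

/-- The size of the ground set in unary. -/
def nU : List Bool := p.2.take (p.1.getD 0 0)
/-- The size of the ground set. -/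
def N : ℕ := (nU p).length
/-- The size parameter. -/
def t : ℕ := p.1.getD 0 0 + (p.1.getD 2 0 + p.1.getD 1 0 - 1) / p.1.getD 1 0 +
  ((p.1.getD 4 0 + p.1.getD 3 0 - 1) / p.1.getD 3 0).size + 64
/-- The precision in unary. -/
def bU : List Bool := (t p).bits ++ (t p).bits ++ (t p).bits ++ (t p).bits
/-- The precision. -/
def b : ℕ := (bU p).length
/-- The base. -/
def qq : ℕ := 2 ^ (bU p).length
/-- Bounded power. -/
def pw (x e : ℕ) : ℕ := x ^ (p.2.take e).length
/-- List version. -/
def K4 : ℕ := b p * qq p ^ 17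
/-- List version. -/
def B0 : ℕ := 2 * b p + 2 + K4 p
/-- The set given by a test. -/
def mk (f : ℕ → Bool → Bool) : Se := (List.range (nU p).length).map fun i => (f i false, f i true)
/-- A copy of bounded size. -/
def nm (S : Se) : Se := mk p (mem S)
/-- List version. -/
def W (H : List Se) (S : Se) : ℤ := ((List.range (nU p).length).map fun i =>
  ((qq p * b p : ℕ) : ℤ) * (((cn S i : ℤ) - 1).natAbs : ℕ) + kk H i * ((cn S i : ℤ) - 1)).sum
/-- List version. -/
def tr (S : Se) : Bool := (List.range (nU p).length).all fun i => decide (cn S i = 1)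
/-- The bits of the current step. -/
def blk (y : LS) : List Bool := (p.2.drop ((tm y - 2 * N p) * B0 p)).take (B0 p)
/-- The element that leaves. -/
def cc (l : List Bool) : ℕ × Bool := (val (l.take (b p)), (l.drop (b p)).headD false)
/-- The element that enters. -/
def dd (l : List Bool) : ℕ × Bool :=
  (val ((l.drop (b p + 1)).take (b p)), (l.drop (2 * b p + 1)).headD false)
/-- List version. -/
def sw (S : Se) (c d : ℕ × Bool) : Se := mk p fun i β =>
  (decide (i = d.1) && decide (β = d.2)) || (!(decide (i = c.1) && decide (β = c.2)) && mem S i β)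
/-- The candidate in a greedy round. -/
def gc (S : Se) (s : ℕ) : Se := mk p fun i β =>
  cond β (!(decide (i + N p = s)) && mem S i β) (decide (i = s) || mem S i β)
/-- The candidate. -/
def cand (y : LS) : Se :=
  if tm y < 2 * N p then gc p y.1.1 (tm y) else sw p y.1.1 (cc p (blk p y)) (dd p (blk p y))
/-- The matroid that is asked. -/
def side (y : LS) : Bool := if tm y < 2 * N p then decide (N p ≤ tm y) else (cc p (blk p y)).2
/-- The query. -/
def qry (y : LS) : Bool × List Bool :=
  (side p y, (cand p y).map fun z => cond (side p y) (!z.2) z.1)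
/-- List version. -/
def inc (y : LS) : ℕ := min (W p y.2.2.1 (cand p y) - W p y.2.2.1 y.1.1).toNat (qq p ^ 17)
/-- Whether the exchange is made. -/
def ok (y : LS) (c d : ℕ × Bool) (u : ℕ) : Bool :=
  decide (c.1 < N p) && decide (d.1 < N p) && mem y.1.1 c.1 c.2 && !mem y.1.1 d.1 d.2 &&
    decide (y.2.1.2.2.1.length ≤ c.1) && decide (y.2.1.2.2.1.length ≤ d.1) && decide (c.2 = d.2) &&
    decide (u * pw p (qq p) (inc p y) < pw p (qq p - 1) (inc p y) * pw p 2 (K4 p))
/-- One step of the chain. -/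
def s0 (y : LS) (a : Bool) : LS :=
  cond (a && ok p y (cc p (blk p y)) (dd p (blk p y))
    (val (((blk p y).drop (2 * b p + 2)).take (K4 p)))) ((cand p y, y.1.2), y.2) y
/-- List version. -/
def h1 (y : LS) : LS :=
  cond (!y.2.2.2.1 && tr p y.1.1) ((y.1.1, nm p y.1.1, y.1.2.2), y.2.1, y.2.2.1, true, y.2.2.2.2)
    (y.1, y.2.1, nm p y.1.1 :: y.2.2.1, y.2.2.2)
/-- List version. -/
def h2 (y : LS) : LS :=
  cond y.2.2.2.1
    (cond (decide (y.2.1.2.2.1.length < N p) && mem y.1.2.1 y.2.1.2.2.1.length true)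
      ((y.1.1, y.1.2.1, y.1.2.2.1, nm p y.1.2.1), (y.2.1.1, () :: y.2.1.2.1, y.2.1.2.2), [], false,
        y.2.2.2.2)
      ((y.1.1, y.1.2.1, nm p y.1.2.1, y.1.2.2.2), (() :: y.2.1.1, y.2.1.2), [], false, y.2.2.2.2))
    (y.1, y.2.1, [], y.2.2.2)
/-- List version. -/
def h3 (y : LS) : LS :=
  cond (decide (y.2.1.1.length ≤ y.2.1.2.1.length))
    ((nm p y.1.2.2.2, y.1.2.1, nm p y.1.2.2.2, y.1.2.2.2),
      ([], [], () :: y.2.1.2.2.1, y.2.1.2.2.2), y.2.2.1, y.2.2.2.1, y.2.1.2.1 :: y.2.2.2.2)
    ((nm p y.1.2.2.1, y.1.2.1, y.1.2.2.1, nm p y.1.2.2.1),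
      ([], [], () :: y.2.1.2.2.1, y.2.1.2.2.2), y.2.2.1, y.2.2.2.1, y.2.1.1 :: y.2.2.2.2)
/-- First periodic action. -/
def w1 (y : LS) (a : Bool) : LS :=
  if (tm y - 2 * N p + 1) % qq p ^ 25 = 0 then h1 p (s0 p y a) else s0 p y a
/-- Second periodic action. -/
def w2 (y : LS) (a : Bool) : LS :=
  if (tm y - 2 * N p + 1) % (qq p ^ 14 * qq p ^ 25) = 0 then h2 p (w1 p y a) else w1 p y a
/-- Third periodic action. -/
def w3 (y : LS) (a : Bool) : LS :=
  if (tm y - 2 * N p + 1) % (qq p ^ 3 * (qq p ^ 14 * qq p ^ 25)) = 0 then h3 p (w2 p y a)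
  else w2 p y a
/-- The start of the chain. -/
def ini (S : Se) (s : Un) : LS := ((S, S, S, S), ([], [], [], s), [], false, [])
/-- The clock. -/
def tick (y : LS) : LS := (y.1, (y.2.1.1, y.2.1.2.1, y.2.1.2.2.1, () :: y.2.1.2.2.2), y.2.2)
/-- One round. -/
def stp (y : LS) (a : Bool) : LS :=
  tick (if tm y < 2 * N p then ini (cond a (cand p y) (nm p y.1.1)) y.2.1.2.2.2
    else if tm y < 2 * N p + N p * (qq p ^ 3 * (qq p ^ 14 * qq p ^ 25)) then w3 p y a else y)
/-- The state after given answers. -/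
def sta (l : List Bool) : LS := l.foldl (stp p) (ini (mk p fun _ β => β) [])
/-- The result of one round. -/
def out (y : LS) : (Bool × List Bool) × ℕ × ℕ :=
  (qry p y, (qq p ^ 3) ^ (nU p).length, (y.2.2.2.2.map List.length).prod)

/-- The algorithm. -/
def alg (a : List ℕ × List Bool × List Bool) : (Bool × List Bool) × ℕ × ℕ :=
  out (a.1, a.2.1) (sta (a.1, a.2.1) a.2.2)

theorem sz_mk (f : ℕ → Bool → Bool) : sz (mk p f) ≤ (nU p).length * 8 + 1 := by
  have := sz_list_le (l := mk p f) (B := 7) fun a _ => by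
    have h1 := sz_bool a.1
    have h2 := sz_bool a.2
    rw [sz_pair']; omega
  simpa [mk] using this

theorem sz_nm (S : Se) : sz (nm p S) ≤ (nU p).length * 8 + 1 := sz_mk p _

theorem sz_cand (y : LS) : sz (cand p y) ≤ (nU p).length * 8 + 1 := by
  unfold cand; split_ifs <;> exact sz_mk p _

theorem sz_w3 (y : LS) (a : Bool) : sz (w3 p y a) ≤ sz y + ((nU p).length * 40 + 20) := by
  have a0 : sz (s0 p y a) ≤ sz y + ((nU p).length * 8 + 1) := by
    have := sz_cand p y
    obtain ⟨⟨S, R⟩, z⟩ := y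
    unfold s0
    generalize (a && _) = c
    cases c <;> simp only [cond_true, cond_false, sz_pair] <;> omega
  have a1 : ∀ y, sz (h1 p y) ≤ sz y + ((nU p).length * 8 + 5) := by
    rintro ⟨⟨S, X, R⟩, c, H, fl, D⟩
    have := sz_nm p S
    have := sz_bool true
    unfold h1
    generalize (_ && _) = c
    cases c <;> simp only [cond_true, cond_false, sz_pair, sz_cons] <;> omega
  have a2 : ∀ y, sz (h2 p y) ≤ sz y + ((nU p).length * 8 + 6) := by
    rintro ⟨⟨S, X, R, R'⟩, ⟨c, c', e⟩, H, fl, D⟩
    have := sz_nm p X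
    have := sz_bool false
    have := sz_pos H
    unfold h2
    generalize (_ && _) = c
    cases c <;> cases fl <;>
      simp only [cond_true, cond_false, sz_pair, sz_cons, sz_unit, sz_nil] <;> omega
  have a3 : ∀ y, sz (h3 p y) ≤ sz y + ((nU p).length * 16 + 8) := by
    rintro ⟨⟨S, X, R, R'⟩, ⟨c, c', e, s⟩, H, fl, D⟩
    have := sz_nm p R
    have := sz_nm p R'
    unfold h3
    dsimp only
    cases decide (c.length ≤ c'.length) <;>
      simp only [cond_true, cond_false, sz_pair, sz_cons, sz_unit, sz_nil] <;> omega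
  have b1 : sz (w1 p y a) ≤ sz y + ((nU p).length * 16 + 6) := by
    have := a1 (s0 p y a)
    unfold w1; split_ifs <;> omega
  have b2 : sz (w2 p y a) ≤ sz y + ((nU p).length * 24 + 12) := by
    have := a2 (w1 p y a)
    unfold w2; split_ifs <;> omega
  have := a3 (w2 p y a)
  unfold w3; split_ifs <;> omega

theorem sz_stp (y : LS) (a : Bool) : sz (stp p y a) ≤ sz y + ((nU p).length * 40 + 30) := by
  have a1 : ∀ y : LS, sz (tick y) = sz y + 2 := by
    rintro ⟨S, ⟨c, c', e, s⟩, z⟩
    simp only [tick, sz_pair, sz_cons, sz_unit]; omega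
  have a2 := sz_w3 p y a
  rw [stp, a1]
  split_ifs
  · have : sz (cond a (cand p y) (nm p y.1.1)) ≤ (nU p).length * 8 + 1 := by
      cases a
      exacts [sz_nm p _, sz_cand p y]
    generalize cond a (cand p y) (nm p y.1.1) = R at this ⊢
    obtain ⟨S, ⟨c, c', e, s⟩, z⟩ := y
    have := sz_bool false
    simp only [ini, sz_pair, sz_nil]; omega
  · omega
  · omega

attribute [local irreducible] mem cn kk tm nU N t bU b qq pw K4 B0 mk nm W tr blk cc dd sw gc cand
  side qry inc ok s0 h1 h2 h3 w1 w2 w3 ini tick stp sta out val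

section
variable {α : Type} [Enc α] {g : α → Pa} {i j : α → ℕ} {S : α → Se} {y : α → LS} {β : α → Bool}
  {l : α → List Bool} {H : α → List Se} {c d : α → ℕ × Bool} {u : α → Un}

@[fun_prop] theorem pt_mem (hS : PT S) (hi : PT i) (hβ : PT β) :
    PT fun z => mem (S z) (i z) (β z) := by unfold mem; fun_prop
@[fun_prop] theorem pt_cn (hS : PT S) (hi : PT i) : PT fun z => cn (S z) (i z) := by
  unfold cn; fun_prop
@[fun_prop] theorem pt_kk (hH : PT H) (hi : PT i) : PT fun z => kk (H z) (i z) := by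
  unfold kk; fun_prop
@[fun_prop] theorem pt_tm (hy : PT y) : PT fun z => tm (y z) := by unfold tm; fun_prop
@[fun_prop] theorem pt_ini (hS : PT S) (hu : PT u) : PT fun z => ini (S z) (u z) := by
  unfold ini; fun_prop
@[fun_prop] theorem pt_tick (hy : PT y) : PT fun z => tick (y z) := by unfold tick; fun_prop

variable (hg : PT g)
include hg

@[fun_prop] theorem pt_nU : PT fun z => nU (g z) := by unfold nU; fun_prop
@[fun_prop] theorem pt_N : PT fun z => N (g z) := by unfold N; fun_prop
@[fun_prop] theorem pt_t : PT fun z => t (g z) := by unfold t; fun_prop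
@[fun_prop] theorem pt_bU : PT fun z => bU (g z) := by unfold bU; fun_prop
@[fun_prop] theorem pt_b : PT fun z => b (g z) := by unfold b; fun_prop
@[fun_prop] theorem pt_qq : PT fun z => qq (g z) := by
  unfold qq; exact pow (PT.const 2) (pt_bU hg)
@[fun_prop] theorem pt_pw (hi : PT i) (hj : PT j) : PT fun z => pw (g z) (i z) (j z) := by
  unfold pw; exact pow hi (by fun_prop)
@[fun_prop] theorem pt_K4 : PT fun z => K4 (g z) := by unfold K4; fun_prop
@[fun_prop] theorem pt_B0 : PT fun z => B0 (g z) := by unfold B0; fun_prop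
theorem pt_mk {f : α → ℕ → Bool → Bool} (h0 : PT fun z : α × ℕ => f z.1 z.2 false)
    (h1 : PT fun z : α × ℕ => f z.1 z.2 true) : PT fun z => mk (g z) (f z) := by
  unfold mk; exact PT.map (by fun_prop) (h0.pair h1)
@[fun_prop] theorem pt_nm (hS : PT S) : PT fun z => nm (g z) (S z) := by
  unfold nm; exact pt_mk hg (by fun_prop) (by fun_prop)
@[fun_prop] theorem pt_W (hH : PT H) (hS : PT S) : PT fun z => W (g z) (H z) (S z) := by
  unfold W; fun_prop
@[fun_prop] theorem pt_tr (hS : PT S) : PT fun z => tr (g z) (S z) := by unfold tr; fun_prop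
@[fun_prop] theorem pt_blk (hy : PT y) : PT fun z => blk (g z) (y z) := by unfold blk; fun_prop
@[fun_prop] theorem pt_cc (hl : PT l) : PT fun z => cc (g z) (l z) := by unfold cc; fun_prop
@[fun_prop] theorem pt_dd (hl : PT l) : PT fun z => dd (g z) (l z) := by unfold dd; fun_prop
@[fun_prop] theorem pt_sw (hS : PT S) (hc : PT c) (hd : PT d) :
    PT fun z => sw (g z) (S z) (c z) (d z) := by
  unfold sw; exact pt_mk hg (by fun_prop) (by fun_prop)
@[fun_prop] theorem pt_gc (hS : PT S) (hi : PT i) : PT fun z => gc (g z) (S z) (i z) := by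
  unfold gc; exact pt_mk hg (by fun_prop) (by fun_prop)
@[fun_prop] theorem pt_cand (hy : PT y) : PT fun z => cand (g z) (y z) := by unfold cand; fun_prop
@[fun_prop] theorem pt_side (hy : PT y) : PT fun z => side (g z) (y z) := by unfold side; fun_prop
@[fun_prop] theorem pt_qry (hy : PT y) : PT fun z => qry (g z) (y z) := by unfold qry; fun_prop
@[fun_prop] theorem pt_inc (hy : PT y) : PT fun z => inc (g z) (y z) := by unfold inc; fun_prop
@[fun_prop] theorem pt_ok (hy : PT y) (hc : PT c) (hd : PT d) (hi : PT i) :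
    PT fun z => ok (g z) (y z) (c z) (d z) (i z) := by unfold ok; fun_prop
@[fun_prop] theorem pt_s0 (hy : PT y) (hβ : PT β) : PT fun z => s0 (g z) (y z) (β z) := by
  unfold s0; fun_prop
@[fun_prop] theorem pt_h1 (hy : PT y) : PT fun z => h1 (g z) (y z) := by unfold h1; fun_prop
@[fun_prop] theorem pt_h2 (hy : PT y) : PT fun z => h2 (g z) (y z) := by unfold h2; fun_prop
@[fun_prop] theorem pt_h3 (hy : PT y) : PT fun z => h3 (g z) (y z) := by unfold h3; fun_prop
@[fun_prop] theorem pt_w1 (hy : PT y) (hβ : PT β) : PT fun z => w1 (g z) (y z) (β z) := by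
  unfold w1; fun_prop
@[fun_prop] theorem pt_w2 (hy : PT y) (hβ : PT β) : PT fun z => w2 (g z) (y z) (β z) := by
  unfold w2; fun_prop
@[fun_prop] theorem pt_w3 (hy : PT y) (hβ : PT β) : PT fun z => w3 (g z) (y z) (β z) := by
  unfold w3; fun_prop
@[fun_prop] theorem pt_stp (hy : PT y) (hβ : PT β) : PT fun z => stp (g z) (y z) (β z) := by
  unfold stp; fun_prop
@[fun_prop] theorem pt_sta (hl : PT l) : PT fun z => sta (g z) (l z) := by
  unfold sta
  exact PT.foldl_add (h := fun z y a => stp (g z) y a) (by fun_prop) hl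
    (pt_ini (pt_mk hg (PT.const false) (PT.const true)) (PT.const []))
    (fun z => (nU (g z.1)).length * 40 + 30) (by fun_prop) fun z y a => sz_stp _ y a
@[fun_prop] theorem pt_out (hy : PT y) : PT fun z => out (g z) (y z) := by
  unfold out
  exact (pt_qry hg hy).pair ((pow (by fun_prop) (pt_nU hg)).pair (by fun_prop))

end

theorem pt_alg : PT alg := by unfold alg; fun_prop

end Vale.Agent.P317.AL
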