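import Vale.Agent.P317.Rep

/-!
The machine and the final statement.
-/

namespace Vale.Agent.P317

open Finset

namespace AL

open Vale.Agent.Lib.H24.T Turing

theorem code_list {α : Type} [Enc α] {f : α → List Bool} (h : ∀ a, code a = f a) (l : List α) :
    code l = codeList f l := P328.AL.code_list h l

theorem code_bit (b : Bool) : code b = codeBit b := by cases b <;> rfl

theorem code_bits (l : List Bool) : code l = codeBits l := code_list code_bit l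

theorem code_nat (n : ℕ) : code n = codeNat n := code_bits n.bits

theorem code_in (a : List ℕ × List Bool × List Bool) : code a = codeIn a := by
  obtain ⟨x, y, z⟩ := a
  rw [code_pair, code_pair, code_list code_nat, code_bits, code_bits]
  rfl

theorem code_out (a : (Bool × List Bool) × ℕ × ℕ) : code a = codeOut a := by
  obtain ⟨⟨x, y⟩, z, w⟩ := a
  rw [code_pair, code_pair, code_pair, code_bit, code_bits, code_nat, code_nat]
  rfl

theorem alg_machine : ∃ M : TM2ComputableInPolyTime codeIn codeOut alg,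
    ∀ k, Finite (M.tm.Γ k) := by
  obtain ⟨p, t, ⟨k, hk⟩, hp⟩ := pt_alg
  obtain ⟨tm, ein, eout, h1, h2⟩ := P328.AL.exists_tm p
  have h3 : ∀ S, Nonempty (TM2OutputsInTime tm ((codeIn S).map ein.invFun)
      (some ((codeOut (alg S)).map eout.invFun))
      (((Polynomial.X + 2) ^ k + 2 : Polynomial ℕ).eval (codeIn S).length)) := by
    intro S
    obtain ⟨h⟩ := h2 _ _ _ ((hp S).mono (hk S))
    rw [code_in, code_out, sz, code_in] at h
    refine ⟨?_⟩
    simpa using h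
  exact ⟨⟨⟨tm, ein, eout⟩, (Polynomial.X + 2) ^ k + 2, fun S => (h3 S).some⟩, h1⟩

theorem ceil_inv {ε : ℚ} (h : 0 < ε) :
    ⌈ε⁻¹⌉₊ = (ε.den + ε.num.toNat - 1) / ε.num.toNat := by
  obtain ⟨a, ha⟩ : ∃ a : ℕ, ε.num = a := ⟨_, (Int.toNat_of_nonneg (Rat.num_pos.2 h).le).symm⟩
  have h0 : 0 < a := by have := Rat.num_pos.2 h; omega
  have h1 : (0 : ℚ) < a := by exact_mod_cast h0
  have e : ε⁻¹ = (ε.den : ℚ) / a := by
    conv_lhs => rw [← Rat.num_div_den ε, ha]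
    simp
  rw [e, ha, Int.toNat_natCast]
  refine eq_of_forall_ge_iff fun m => ?_
  rw [Nat.ceil_le, div_le_iff₀ h1, ← Nat.lt_succ_iff, Nat.div_lt_iff_lt_mul h0, Nat.succ_mul,
    ← Nat.cast_mul, Nat.cast_le]
  omega

theorem clock {n b : ℕ} (hq : 256 * (n + 1) ^ 2 ≤ q b) :
    n * (T3 b * (T2 b * (T1 b * P317.B0 b))) ≤ q b ^ 80 ∧
    2 * n + n * (T3 b * (T2 b * T1 b)) ≤ q b ^ 80 ∧ n ≤ q b ^ 80 ∧ P317.K4 b ≤ q b ^ 80 ∧
    q b ^ 17 ≤ q b ^ 80 := by
  have h0 := q_ge hq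
  have h1 := b_le (b := b)
  have h2 := n_le hq
  have m : ∀ i j, i ≤ j → q b ^ i ≤ q b ^ j := fun i j h => Nat.pow_le_pow_right (by omega) h
  have h3 : P317.K4 b ≤ q b ^ 18 := by rw [pow_succ']; exact Nat.mul_le_mul_right _ h1
  have h4 : q b ≤ q b ^ 18 := Nat.le_self_pow (by omega) _
  have h5 : P317.B0 b ≤ q b * q b ^ 18 :=
    (show P317.B0 b ≤ 4 * q b ^ 18 by unfold P317.B0; omega).trans
      (Nat.mul_le_mul_right _ (by omega))
  have h6 : n * (T3 b * (T2 b * T1 b)) ≤ q b ^ 43 :=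
    (Nat.mul_le_mul_right _ (show n ≤ q b by omega)).trans_eq (by unfold T1 T2 T3; ring)
  have h7 : 2 * q b ^ 43 ≤ q b ^ 44 := by
    rw [pow_succ' _ 43]; exact Nat.mul_le_mul_right _ (by omega)
  have := m 18 43 (by omega)
  have := m 44 80 (by omega)
  refine ⟨?_, by omega, by omega, by omega, m _ _ (by omega)⟩
  calc _ = n * (T3 b * (T2 b * T1 b)) * P317.B0 b := by ring
    _ ≤ q b ^ 43 * (q b * q b ^ 18) := Nat.mul_le_mul h6 h5
    _ = q b ^ 62 := by ring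
    _ ≤ _ := m _ _ (by omega)

end AL

open AL Mt in
theorem final (h : ∀ (n b : ℕ) (B : Finset (Finset (Fin n × Bool))), Fam B →
    256 * (n + 1) ^ 2 ≤ q b → LawStmt b B) : FinalStmt := by
  refine ⟨alg, (Polynomial.X + 64) ^ 400, alg_machine,
    fun n M₁ M₂ hE hE' hr ε δ e0 _ d0 _ T hT N hN => ?_⟩
  obtain ⟨k, hk⟩ : ∃ k, k = ⌈ε⁻¹⌉₊ := ⟨_, rfl⟩
  obtain ⟨l, hl⟩ : ∃ l, l = Nat.size ⌈δ⁻¹⌉₊ := ⟨_, rfl⟩
  obtain ⟨τ, hτ⟩ : ∃ τ, τ = n + k + l + 64 := ⟨_, rfl⟩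
  obtain ⟨b, hb⟩ : ∃ b, b = 4 * τ.size := ⟨_, rfl⟩
  obtain ⟨q1, q2⟩ : τ ^ 4 ≤ q b ∧ q b ≤ τ ^ 5 := hb ▸ P328.AL.q_bounds (show 64 ≤ τ by omega)
  have q3 : 4096 * τ ^ 2 ≤ q b := le_trans (by
    rw [show τ ^ 4 = τ ^ 2 * τ ^ 2 by ring]
    exact Nat.mul_le_mul_right _ (Nat.pow_le_pow_left (show 64 ≤ τ by omega) 2)) q1
  have hq : 256 * (n + 1) ^ 2 ≤ q b :=
    le_trans (Nat.mul_le_mul (by omega) (Nat.pow_le_pow_left (by omega) 2)) q3
  have hP : q b ^ 80 ≤ T := by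
    have : T = τ ^ 400 := by rw [hT, ← hk, ← hl, hτ]; simp
    rw [this, show 400 = 5 * 80 by norm_num, pow_mul]
    exact Nat.pow_le_pow_left q2 _
  obtain ⟨c1, c2, c3, c4, c5⟩ := clock hq
  have k0 : 0 < k := hk ▸ Nat.ceil_pos.2 (inv_pos.2 e0)
  have k1 : (1 / k : ℚ) ≤ ε := by
    rw [one_div]
    exact inv_le_of_inv_le₀ e0 (hk ▸ Nat.le_ceil _)
  have l1 : (1 / 2 ^ l : ℚ) ≤ δ := by
    rw [one_div]
    refine inv_le_of_inv_le₀ d0 ((Nat.le_ceil _).trans ?_)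
    exact_mod_cast (hl ▸ Nat.lt_size_self _ : ⌈δ⁻¹⌉₊ < 2 ^ l).le
  have hE2 : ∀ β : Bool, (if β then M₂ else M₁).E = Set.univ := fun β => by
    cases β <;> assumption
  have law := h n b _ (fam_Fam (M := fun β => if β then M₂ else M₁) hE2 hr) hq _
    (GI_end hE2 (grd_GI _ _ le_rfl)) k l T k0
    (le_trans (by
      rw [mul_assoc, pow_two]
      exact Nat.mul_le_mul (by omega) (Nat.mul_le_mul (by omega) (by omega))) q3)
    (le_trans (Nat.mul_le_mul (by omega) ((show l + n + 2 ≤ τ by omega).trans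
      (Nat.le_self_pow (by omega) _))) q3) (c1.trans hP)
  rw [P328.Lw.Ex_fin, fam_card] at law
  have hN' : {X | (if false then M₂ else M₁).IsBase X ∧ (if true then M₂ else M₁).IsBase X}.ncard
    = N := hN.symm
  rw [hN'] at law
  rw [← Rat.cast_le (K := ℝ)]
  have l2 : ((1 / 2 ^ l : ℚ) : ℝ) ≤ δ := Rat.cast_le.2 l1
  push_cast at l2 ⊢
  refine (sub_le_sub_left l2 1).trans (law.trans (div_le_div_of_nonneg_right ?_ (by positivity)))
  rw [card_filter]
  push_cast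
  refine sum_le_sum fun ρ _ => ?_
  have R : Rep ([n, ε.num.toNat, ε.den, δ.num.toNat, δ.den], List.ofFn ρ) n b := by
    refine ⟨?_, ?_, ?_, ?_⟩
    · simpa [nU] using c3.trans hP
    · have e : t ([n, ε.num.toNat, ε.den, δ.num.toNat, δ.den], List.ofFn ρ) = τ := by
        rw [hτ, hk, hl, ceil_inv e0, ceil_inv d0]; rfl
      simp only [AL.b, bU, e, List.length_append, Nat.size_eq_bits_len, hb]
      omega
    · simpa using c4.trans hP
    · simpa using c5.trans hP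
  have E := R.est M₁ M₂ hE hE' (c2.trans hP)
  dsimp only at E
  rw [E, Nat.cast_pow]
  have N0 : (0 : ℚ) ≤ N := Nat.cast_nonneg _
  split_ifs with a1 a2
  · exact le_rfl
  · refine absurd ⟨le_trans ?_ a1.1, a1.2.trans ?_⟩ a2 <;>
      exact mul_le_mul_of_nonneg_right (by linarith) N0
  · exact zero_le_one
  · exact le_rfl

end Vale.Agent.P317
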