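import Vale.Agent.P317.Algo

/-!
The list algorithm agrees with the algorithm on finite sets.
-/

namespace Vale.Agent.P317.AL

open Finset Mt
open Vale.Agent.P328 (val)

variable {n : ℕ}

/-- The set given by a list. -/
def vs (S : Se) : Finset (Fin n × Bool) := univ.filter fun c => mem S c.1 c.2 = true

/-- The state given by a list state. -/
def vw (y : LS) : St n :=
  ⟨vs y.1.1, fun e => kk y.2.2.1 e, y.2.2.2.1, vs y.1.2.1,
    fun β => vs (cond β y.1.2.2.2 y.1.2.2.1), fun β => (cond β y.2.1.2.1 y.2.1.1).length,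
    y.2.1.2.2.1.length, (y.2.2.2.2.map List.length).prod⟩

theorem mem_vs {S : Se} {c : Fin n × Bool} : c ∈ vs S ↔ mem S c.1 c.2 = true := by simp [vs]

theorem cn_eq (S : Se) (e : Fin n) : cn S e = cnt (vs S) e := by
  unfold cn cnt
  simp only [mem_vs]
  cases mem S e false <;> cases mem S e true <;> rfl

theorem set_eq {S : Se} (h : S.length = n) (β : Bool) :
    {i : Fin n | (S.map fun z => cond β (!z.2) z.1).getD i false = true} = pt (vs S) β := by
  ext i
  have : i.val < S.length := h ▸ i.2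
  cases β <;> simp [pt, mem_vs, mem, this]

theorem tm_stp (p : Pa) (y : LS) (a : Bool) : tm (stp p y a) = tm y + 1 := by
  have a0 : tm (s0 p y a) = tm y := by
    unfold s0; generalize (a && _) = c; cases c <;> rfl
  have a1 : ∀ y, tm (h1 p y) = tm y := fun y => by
    unfold h1; generalize (_ && _) = c; cases c <;> rfl
  have a2 : ∀ y, tm (h2 p y) = tm y := fun y => by
    unfold h2; generalize (_ && _) = c; cases c <;> cases y.2.2.2.1 <;> rfl
  have a3 : ∀ y, tm (h3 p y) = tm y := fun y => by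
    unfold h3; cases decide (y.2.1.1.length ≤ y.2.1.2.1.length) <;> rfl
  have b1 : tm (w1 p y a) = tm y := by unfold w1; split_ifs <;> simp only [a0, a1]
  have b2 : tm (w2 p y a) = tm y := by unfold w2; split_ifs <;> simp only [b1, a2]
  have b3 : tm (w3 p y a) = tm y := by unfold w3; split_ifs <;> simp only [b2, a3]
  have c : ∀ y, tm (tick y) = tm y + 1 := fun _ => rfl
  rw [stp, c]
  split_ifs
  exacts [rfl, congrArg (· + 1) b3, rfl]

/-- The greedy candidate. -/
def gcF (S : Finset (Fin n × Bool)) (s : ℕ) : Finset (Fin n × Bool) :=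
  univ.filter fun c => if c.2 = true then c.1 + n ≠ s ∧ c ∈ S else (c.1 = s ∨ c ∈ S)

open Classical in
/-- The greedy rounds. -/
noncomputable def grd (M : Bool → Matroid (Fin n)) : ℕ → Finset (Fin n × Bool)
  | 0 => univ.filter fun c => c.2 = true
  | s + 1 => if (M (decide (n ≤ s))).Indep (pt (gcF (grd M s) s) (decide (n ≤ s))) then
      gcF (grd M s) s else grd M s

theorem grd_GI (M : Bool → Matroid (Fin n)) (s : ℕ) (hs : s ≤ 2 * n) : GI M s (grd M s) := by
  induction s with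
  | zero => exact GI_zero fun c => by simp [grd]
  | succ s ih =>
    have hi : s - (decide (n ≤ s)).toNat * n < n := by
      by_cases h : n ≤ s <;> simp [h] <;> omega
    have := GI_step (ih (by omega)) (β := decide (n ≤ s)) (i := ⟨_, hi⟩)
      (by by_cases h : n ≤ s <;> simp [h]) (S' := gcF (grd M s) s) ?_ ?_
    · rw [grd]; split_ifs with h
      exacts [this.1 h, this.2 h]
    · ext x
      have := x.2
      by_cases h : n ≤ s
      · simp only [h, decide_true, mem_t, gcF, Set.mem_insert_iff, Fin.ext_iff]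
        simp only [mem_filter, mem_univ, true_and, if_true, Bool.toNat_true, one_mul, not_and_or,
          ne_eq, not_not]
        exact or_congr_left (by omega)
      · simp [h, mem_f, gcF, Fin.ext_iff]
    · intro γ hγ
      ext x
      have := x.2
      by_cases h : n ≤ s
      · have : γ = false := by simpa [h] using hγ
        subst this
        simp only [mem_f, gcF, mem_filter, mem_univ, true_and, Bool.false_eq_true, if_false]
        exact or_iff_right (by omega)
      · have : γ = true := by simpa [h] using hγ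
        subst this
        simp only [mem_t, gcF, mem_filter, mem_univ, true_and, if_true]
        exact not_congr (and_iff_right (by omega))

/-- The input represents the parameters. -/
structure Rep (p : Pa) (n b : ℕ) : Prop where
  hN : (nU p).length = n
  hb : AL.b p = b
  h1 : P317.K4 b ≤ p.2.length
  h2 : q b ^ 17 ≤ p.2.length

namespace Rep

variable {p : Pa} {b : ℕ} (h : Rep p n b)
include h

theorem N_eq : N p = n := h.hN
theorem q_eq : qq p = q b := by rw [q, ← h.hb]; rfl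
theorem K4_eq : K4 p = P317.K4 b := by rw [K4, P317.K4, h.hb, h.q_eq]
theorem B0_eq : B0 p = P317.B0 b := by rw [B0, P317.B0, h.hb, h.K4_eq]

omit h in
theorem pw_eq {x e : ℕ} (he : e ≤ p.2.length) : pw p x e = x ^ e := by
  rw [pw, List.length_take, min_eq_left he]

theorem mem_mk {f : ℕ → Bool → Bool} {c : Fin n × Bool} :
    c ∈ (vs (AL.mk p f) : Finset (Fin n × Bool)) ↔ f c.1 c.2 = true := by
  obtain ⟨i, β⟩ := c
  cases β <;> simp [mem_vs, mem, AL.mk, h.hN]

theorem nm_eq (S : Se) : (vs (nm p S) : Finset (Fin n × Bool)) = vs S := by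
  ext c; rw [nm, h.mem_mk, mem_vs]

theorem W_eq (H : List Se) (S : Se) : W p H S = P317.W (jj b) (fun e : Fin n => kk H e) (vs S) := by
  rw [W, P317.W, h.hN, h.q_eq, h.hb, P328.AL.map_range, List.sum_ofFn]
  simp only [cn_eq, Int.natCast_natAbs, jj]

theorem tr_eq (S : Se) : tr p S = true ↔ Tr (vs S : Finset (Fin n × Bool)) := by
  simp only [tr, h.hN, Tr, List.all_eq_true, List.mem_range, decide_eq_true_eq, ← cn_eq,
    Fin.forall_iff]

theorem sw_eq (S : Se) (c d : Fin n × Bool) :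
    vs (sw p S (c.1, c.2) (d.1, d.2)) = P317.sw (vs S) c d := by
  ext x
  rw [sw, h.mem_mk, mem_sw, mem_vs]
  simp only [Bool.or_eq_true, Bool.and_eq_true, decide_eq_true_eq, Bool.not_eq_true',
    Prod.ext_iff, Fin.ext_iff, ne_eq, ← Bool.not_eq_true]

theorem gc_eq (S : Se) (s : ℕ) : (vs (gc p S s) : Finset (Fin n × Bool)) = gcF (vs S) s := by
  ext ⟨i, β⟩
  rw [gc, h.mem_mk]
  cases β <;> simp [gcF, mem_vs, h.N_eq]

theorem ora (M₁ M₂ : Matroid (Fin n)) (y : LS) : oracle M₁ M₂ (qry p y) = true ↔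
    (if side p y then M₂ else M₁).Indep (pt (vs (cand p y)) (side p y)) := by
  have : (cand p y).length = n := by
    unfold cand gc sw; split_ifs <;> simp [AL.mk, h.hN]
  rw [← set_eq this]
  exact @decide_eq_true_iff _ (Classical.propDecidable _)

theorem h1_eq (y : LS) : (vw (AL.h1 p y) : St n) = P317.h1 (vw y) := by
  unfold AL.h1 P317.h1
  by_cases c : (vw y : St n).fl = false ∧ Tr (vw y : St n).S
  · rw [if_pos c, show (!y.2.2.2.1 && tr p y.1.1) = true by
      simp only [Bool.and_eq_true, h.tr_eq, Bool.not_eq_true']; exact c]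
    simp [vw, h.nm_eq]
  · rw [if_neg c, show (!y.2.2.2.1 && tr p y.1.1) = false by
      rw [← Bool.not_eq_true]; simp only [Bool.and_eq_true, h.tr_eq, Bool.not_eq_true']; exact c]
    simp only [vw, cond_false, kk, List.map_cons, List.sum_cons, cn_eq, h.nm_eq, add_comm]

theorem bit_eq (X : Se) (e : ℕ) :
    (decide (e < N p) && mem X e true) = bit (vs X : Finset (Fin n × Bool)) e := by
  rw [Bool.eq_iff_iff, bit, h.N_eq]
  simp only [Bool.and_eq_true, decide_eq_true_eq, mem_vs]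
  constructor
  · rintro ⟨h1, h2⟩
    exact ⟨(⟨e, h1⟩, true), h2, rfl, rfl⟩
  · rintro ⟨⟨i, β⟩, h1, rfl, rfl⟩
    exact ⟨i.2, h1⟩

theorem h2_eq (y : LS) : (vw (AL.h2 p y) : St n) = P317.h2 (vw y) := by
  unfold AL.h2 P317.h2
  rw [h.bit_eq]
  obtain ⟨⟨S, X, R, R'⟩, ⟨c, c', e, s⟩, H, fl, D⟩ := y
  cases fl
  · simp [vw, kk]
  · simp only [vw, cond_true, if_true]
    by_cases hb : bit (vs X : Finset (Fin n × Bool)) e.length = true <;>
      simp [hb, kk, funext_iff, h.nm_eq]

theorem h3_eq (y : LS) : (vw (AL.h3 p y) : St n) = P317.h3 (vw y) := by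
  unfold AL.h3 P317.h3
  obtain ⟨⟨S, X, R, R'⟩, ⟨c, c', e, s⟩, H, fl, D⟩ := y
  simp only [vw, cond_true, cond_false]
  by_cases hc : c.length ≤ c'.length <;> simp [hc, funext_iff, h.nm_eq, mul_comm]

theorem s0_eq {M₁ M₂ : Matroid (Fin n)} {y : LS} (ht : ¬ tm y < 2 * n)
    (hS : vs y.1.1 ∈ fam fun β => if β then M₂ else M₁) :
    vw (s0 p y (oracle M₁ M₂ (qry p y))) =
      fstep b (fam fun β => if β then M₂ else M₁) (blk p y) (vw y) := by
  have ho := h.ora M₁ M₂ y
  unfold s0 fstep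
  generalize oracle M₁ M₂ (qry p y) = a at ho ⊢
  by_cases c1 : val ((blk p y).take b) < n ∧ val (((blk p y).drop (b + 1)).take b) < n
  · rw [dif_pos c1]
    obtain ⟨c, hc⟩ : ∃ c : Fin n × Bool, c = (⟨_, c1.1⟩, ((blk p y).drop b).headD false) :=
      ⟨_, rfl⟩
    obtain ⟨d, hd⟩ : ∃ d : Fin n × Bool,
      d = (⟨_, c1.2⟩, ((blk p y).drop (2 * b + 1)).headD false) := ⟨_, rfl⟩
    have ec : cc p (blk p y) = (c.1.val, c.2) := by rw [hc, cc, h.hb]
    have ed : dd p (blk p y) = (d.1.val, d.2) := by rw [hd, dd, h.hb]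
    have e1 : vs (cand p y) = P317.sw (vs y.1.1) c d := by
      rw [cand, h.N_eq, if_neg ht, ec, ed, h.sw_eq]
    have e2 : side p y = c.2 := by rw [side, h.N_eq, if_neg ht, ec]
    have e3 : inc p y = P317.inc b (vw y) c d := by
      rw [inc, h.W_eq, h.W_eq, e1, h.q_eq]; rfl
    have e4 : inc p y ≤ p.2.length := by
      rw [inc, h.q_eq]; exact (min_le_right _ _).trans h.h2
    rw [← hc, ← hd, ec, ed, h.hb, h.K4_eq, fmove]
    rw [e1, e2] at ho
    generalize val (((blk p y).drop (2 * b + 2)).take (P317.K4 b)) = u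
    have key : (a && ok p y (c.1, c.2) (d.1, d.2) u) = true ↔
        c ∈ (vw y : St n).S ∧ d ∉ (vw y : St n).S ∧ (vw y : St n).e ≤ c.1.val ∧
        (vw y : St n).e ≤ d.1.val ∧ P317.sw (vw y : St n).S c d ∈
          (fam fun β => if β then M₂ else M₁) ∧
        u * q b ^ P317.inc b (vw y) c d < (q b - 1) ^ P317.inc b (vw y) c d * 2 ^ P317.K4 b := by
      rw [ok, h.K4_eq, pw_eq e4, pw_eq e4, pw_eq h.h1, e3, h.q_eq, h.N_eq]
      simp only [Bool.and_eq_true, decide_eq_true_eq, Bool.not_eq_true', ← Bool.not_eq_true,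
        ← mem_vs, ho, Fin.is_lt, true_and]
      constructor
      · rintro ⟨a1, ⟨⟨⟨⟨a2, a3⟩, a4⟩, a5⟩, a6⟩, a7⟩
        exact ⟨a2, a3, a4, a5, (sw_mem hS a2 a3).2 ⟨a6, a1⟩, a7⟩
      · rintro ⟨a2, a3, a4, a5, a6, a7⟩
        have := (sw_mem hS a2 a3).1 a6
        exact ⟨this.2, ⟨⟨⟨⟨a2, a3⟩, a4⟩, a5⟩, this.1⟩, a7⟩
    split_ifs with c2
    · rw [key.2 c2, cond_true]
      simp only [vw, e1]
    · rw [Bool.eq_false_iff.2 (mt key.1 c2), cond_false]
  · rw [dif_neg c1]
    have : ok p y (cc p (blk p y)) (dd p (blk p y))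
        (val (((blk p y).drop (2 * AL.b p + 2)).take (K4 p))) = false := by
      rw [← Bool.not_eq_true, ok, h.N_eq]
      simp only [Bool.and_eq_true, decide_eq_true_eq, cc, dd, h.hb]
      exact fun h2 => c1 h2.1.1.1.1.1.1
    rw [this, Bool.and_false, cond_false]

theorem w3_eq {M₁ M₂ : Matroid (Fin n)} {y : LS} (ht : ¬ tm y < 2 * n)
    (hS : vs y.1.1 ∈ fam fun β => if β then M₂ else M₁) :
    vw (w3 p y (oracle M₁ M₂ (qry p y))) =
      flat b (fam fun β => if β then M₂ else M₁) (tm y - 2 * n) (blk p y) (vw y) := by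
  simp only [flat, wrap, w3, w2, w1, h.N_eq, h.q_eq, T1, T2, T3, apply_ite (vw (n := n)), h.h1_eq,
    h.h2_eq, h.h3_eq, h.s0_eq ht hS]
  rfl

variable (M₁ M₂ : Matroid (Fin n))

omit h in
/-- The state after some rounds. -/
noncomputable def Y (p : Pa) (s : ℕ) : LS :=
  (fun z => stp p z (oracle M₁ M₂ (qry p z)))^[s] (ini (AL.mk p fun _ β => β) [])

omit h in
theorem Y_succ (s : ℕ) :
    Y M₁ M₂ p (s + 1) = stp p (Y M₁ M₂ p s) (oracle M₁ M₂ (qry p (Y M₁ M₂ p s))) :=
  Function.iterate_succ_apply' _ _ _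

omit h in
theorem tm_Y (s : ℕ) : tm (Y M₁ M₂ p s) = s := by
  induction s with
  | zero => rfl
  | succ s ih => rw [Y_succ, tm_stp, ih]

omit h in
theorem vw_tick (y : LS) : (vw (tick y) : St n) = vw y := rfl

omit h in
theorem vw_ini (S : Se) (u : Un) : (vw (tick (ini S u)) : St n) = init (vs S) := by
  simp [vw, tick, ini, init, kk]

theorem ph1 (s : ℕ) (hs : s ≤ 2 * n) :
    vw (Y M₁ M₂ p s) = init (grd (fun β => if β then M₂ else M₁) s) := by
  induction s with
  | zero =>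
    refine (vw_ini _ []).trans (congrArg init ?_)
    ext c; simp [h.mem_mk, grd]
  | succ s ih =>
    have e0 : vs (Y M₁ M₂ p s).1.1 = grd (fun β => if β then M₂ else M₁) s :=
      congrArg St.S (ih (by omega))
    have ho := h.ora M₁ M₂ (Y M₁ M₂ p s)
    have e1 : vs (cand p (Y M₁ M₂ p s)) = gcF (grd (fun β => if β then M₂ else M₁) s) s := by
      rw [cand, tm_Y, h.N_eq, if_pos (by omega), h.gc_eq, e0]
    have e2 : side p (Y M₁ M₂ p s) = decide (n ≤ s) := by
      rw [side, tm_Y, h.N_eq, if_pos (by omega)]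
    rw [Y_succ, stp, tm_Y, h.N_eq, if_pos (by omega), vw_ini, grd]
    rw [e1, e2] at ho
    generalize oracle M₁ M₂ _ = a at ho ⊢
    cases a
    · rw [if_neg (fun h1 => Bool.false_ne_true (ho.2 h1)), cond_false, h.nm_eq, e0]
    · rw [if_pos (ho.1 rfl), cond_true, e1]

theorem ph2 {S : Finset (Fin n × Bool)} (h0 : vw (Y M₁ M₂ p (2 * n)) = init S)
    (hS : S ∈ fam fun β => if β then M₂ else M₁) (s : ℕ) (hs : s ≤ n * (T3 b * (T2 b * T1 b))) :
    vw (Y M₁ M₂ p (2 * n + s)) =
      rt (flat b (fam fun β => if β then M₂ else M₁)) (P317.B0 b) p.2 (init S) s ∧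
    Good (fam fun β => if β then M₂ else M₁) (vw (Y M₁ M₂ p (2 * n + s))) := by
  induction s with
  | zero => exact ⟨h0, by rw [add_zero, h0]; exact ⟨hS, hS, fun _ => hS⟩⟩
  | succ s ih =>
    obtain ⟨i1, i2⟩ := ih (by omega)
    have e := h.w3_eq (M₁ := M₁) (M₂ := M₂) (y := Y M₁ M₂ p (2 * n + s)) (by rw [tm_Y]; omega) i2.1
    have e1 : (vw (Y M₁ M₂ p (2 * n + (s + 1))) : St n) =
        vw (w3 p (Y M₁ M₂ p (2 * n + s)) (oracle M₁ M₂ (qry p (Y M₁ M₂ p (2 * n + s))))) := by
      rw [← add_assoc, Y_succ, stp, tm_Y, h.N_eq, h.q_eq, if_neg (by omega),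
        if_pos (by unfold T1 T2 T3 at hs; omega), vw_tick]
    rw [e1, e]
    refine ⟨?_, good_flat _ _ i2⟩
    rw [rt, ← i1, blk, tm_Y, h.N_eq, h.B0_eq, Nat.add_sub_cancel_left]

theorem ph3 (s : ℕ) : (vw (Y M₁ M₂ p (2 * n + n * (T3 b * (T2 b * T1 b)) + s)) : St n) =
    vw (Y M₁ M₂ p (2 * n + n * (T3 b * (T2 b * T1 b)))) := by
  induction s with
  | zero => rfl
  | succ s ih =>
    rw [← add_assoc, Y_succ, stp, tm_Y, h.N_eq, h.q_eq, if_neg (by omega),
      if_neg (by unfold T1 T2 T3; omega), ← ih, vw_tick]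

theorem est (hE : M₁.E = Set.univ) (hE' : M₂.E = Set.univ) {T : ℕ}
    (hT : 2 * n + n * (T3 b * (T2 b * T1 b)) ≤ T) :
    estimate alg (oracle M₁ M₂) p.1 p.2 T = ((T3 b ^ n : ℕ) : ℚ) /
      fden b (fam fun β => if β then M₂ else M₁)
        (grd (fun β => if β then M₂ else M₁) (2 * n)) p.2 := by
  have e : sta p (answers (oracle M₁ M₂) (fun l => (alg (p.1, p.2, l)).1) T) = Y M₁ M₂ p T :=
    answers_fold (stp p) (qry p) _ (fun _ => rfl) T
  obtain ⟨s, rfl⟩ := Nat.exists_eq_add_of_le hT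
  have e1 := (h.ph3 M₁ M₂ s).trans (h.ph2 M₁ M₂ (h.ph1 M₁ M₂ _ le_rfl)
    (GI_end (fun β => by cases β <;> assumption) (grd_GI _ _ le_rfl)) _ le_rfl).1
  rw [rt_flat] at e1
  rw [fden, ← e1, ← e, T3, ← h.q_eq, ← congrArg (fun m => (qq p ^ 3) ^ m) h.hN]
  rfl

end Rep

end Vale.Agent.P317.AL
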